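import Mathlib

namespace Vale.Agent.Lib.P302.helper14

/-- A bin packing instance: a finite list of rational item sizes in `(0,1]`. -/
def IsInstance (I : List ℚ) : Prop := ∀ a ∈ I, 0 < a ∧ a ≤ 1

/-- The items (the positions of the list `I`) can be partitioned into `k` bins, each of total
size at most `1`. -/
def Packable (I : List ℚ) (k : ℕ) : Prop :=
  ∃ f : Fin I.length → Fin k, ∀ b : Fin k,
    ∑ i ∈ Finset.univ.filter (fun i => f i = b), I.get i ≤ 1

/-- `OPT(I)`: the least number of bins into which the items can be partitioned. -/
noncomputable def OPT (I : List ℚ) : ℕ := sInf {k | Packable I k}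

/-- A configuration: a multiset of sizes occurring in `I` of total size at most `1`
(a size may occur more often than its multiplicity in `I`). -/
def IsConfig (I : List ℚ) (c : Multiset ℚ) : Prop := (∀ σ ∈ c, σ ∈ I) ∧ c.sum ≤ 1

/-- A feasible solution of the Gilmore-Gomory configuration LP, written as a finite list of
configurations with nonnegative weights: every size `σ` of `I` is covered at least as often as
its multiplicity in `I`. -/
def IsFracSol (I : List ℚ) (z : List (Multiset ℚ × ℚ)) : Prop :=
  (∀ p ∈ z, IsConfig I p.1 ∧ 0 ≤ p.2) ∧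
    ∀ σ ∈ I, (I.count σ : ℚ) ≤ (z.map fun p => (p.1.count σ : ℚ) * p.2).sum

/-- `LP(I)`: the value of the configuration LP, the infimum of the total weight of feasible
solutions. -/
noncomputable def LP (I : List ℚ) : ℝ :=
  sInf {v : ℝ | ∃ z : List (Multiset ℚ × ℚ), IsFracSol I z ∧ v = (((z.map Prod.snd).sum : ℚ) : ℝ)}

end Vale.Agent.Lib.P302.helper14
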