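import Mathlib

namespace Vale.Agent.Lib.P302.helper14

/-- `TriPart L M`: the multiset `M` of item sizes can be split into triples, each of total size
at most `L`. -/
def TriPart (L : ℕ) (M : Multiset ℕ) : Prop :=
  ∃ T : Multiset (Multiset ℕ), (∀ τ ∈ T, Multiset.card τ = 3 ∧ τ.sum ≤ L) ∧ T.sum = M

theorem triPart_zero (L : ℕ) : TriPart L 0 := ⟨0, by simp, by simp⟩

/-- An element of a triple-partitioned multiset sits in a triple. -/
theorem TriPart.step {L : ℕ} {M : Multiset ℕ} (h : TriPart L M) {x : ℕ} (hx : x ∈ M) :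
    ∃ b c M', M = x ::ₘ b ::ₘ c ::ₘ M' ∧ x + b + c ≤ L ∧ TriPart L M' := by
  obtain ⟨T, hT, rfl⟩ := h
  obtain ⟨τ, hτT, hxτ⟩ := Multiset.mem_join.mp hx
  obtain ⟨T', rfl⟩ := Multiset.exists_cons_of_mem hτT
  obtain ⟨τ', rfl⟩ := Multiset.exists_cons_of_mem hxτ
  have h3 := hT (x ::ₘ τ') (Multiset.mem_cons_self _ _)
  have hc : Multiset.card τ' = 2 := by
    have := h3.1
    simp only [Multiset.card_cons] at this
    omega
  obtain ⟨b, c, rfl⟩ := Multiset.card_eq_two.mp hc
  refine ⟨b, c, T'.sum, ?_, ?_, T', fun τ hτ => hT τ (Multiset.mem_cons_of_mem hτ), rfl⟩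
  · simp [Multiset.sum_cons]
  · have := h3.2
    simp at this
    omega

/-- Replacing an element by a smaller one keeps a triple partition. -/
theorem TriPart.mono {L : ℕ} {M : Multiset ℕ} {u v : ℕ} (h : TriPart L (u ::ₘ M)) (hvu : v ≤ u) :
    TriPart L (v ::ₘ M) := by
  obtain ⟨T, hT, hsum⟩ := h
  have hu : u ∈ T.sum := by rw [hsum]; exact Multiset.mem_cons_self _ _
  obtain ⟨τ, hτT, huτ⟩ := Multiset.mem_join.mp hu
  obtain ⟨T', rfl⟩ := Multiset.exists_cons_of_mem hτT
  obtain ⟨τ', rfl⟩ := Multiset.exists_cons_of_mem huτ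
  have h3 := hT (u ::ₘ τ') (Multiset.mem_cons_self _ _)
  refine ⟨(v ::ₘ τ') ::ₘ T', ?_, ?_⟩
  · intro τ hτ
    rcases Multiset.mem_cons.mp hτ with rfl | hτ
    · refine ⟨by simpa using h3.1, ?_⟩
      have := h3.2
      simp only [Multiset.sum_cons] at this ⊢
      omega
    · exact hT τ (Multiset.mem_cons_of_mem hτ)
  · simp only [Multiset.sum_cons] at hsum ⊢
    have : τ' + T'.sum = M := by
      have h1 : u ::ₘ (τ' + T'.sum) = u ::ₘ M := by rw [← hsum, Multiset.cons_add]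
      exact (Multiset.cons_inj_right u).mp h1
    rw [← this, Multiset.cons_add]

end Vale.Agent.Lib.P302.helper14
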