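import Mathlib
import Vale.Agent.Lib.P302.helper14.TriPart

namespace Vale.Agent.Lib.P302.helper14

/-- The largest element `c` of the list with `c ≤ bd` and `s + c ≤ L`, if any. -/
def maxFit (L s bd : ℕ) : List ℕ → Option ℕ
  | [] => none
  | c :: rest =>
    match maxFit L s bd rest with
    | none => if c ≤ bd ∧ s + c ≤ L then some c else none
    | some c' => if (c ≤ bd ∧ s + c ≤ L) ∧ c' < c then some c else some c'

theorem maxFit_none {L s bd : ℕ} : ∀ {l : List ℕ}, maxFit L s bd l = none →
    ∀ c ∈ l, ¬ (c ≤ bd ∧ s + c ≤ L)
  | [], _, c, hc => by simp at hc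
  | a :: rest, h, c, hc => by
    unfold maxFit at h
    cases hr : maxFit L s bd rest with
    | none =>
      rw [hr] at h
      simp only at h
      rcases List.mem_cons.mp hc with rfl | hc
      · intro hfit
        rw [if_pos hfit] at h
        exact absurd h (by simp)
      · exact maxFit_none hr c hc
    | some c' =>
      rw [hr] at h
      simp only at h
      split_ifs at h

theorem maxFit_some {L s bd : ℕ} : ∀ {l : List ℕ} {m : ℕ}, maxFit L s bd l = some m →
    m ∈ l ∧ (m ≤ bd ∧ s + m ≤ L) ∧ ∀ c ∈ l, (c ≤ bd ∧ s + c ≤ L) → c ≤ m
  | [], m, h => by simp [maxFit] at h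
  | a :: rest, m, h => by
    unfold maxFit at h
    cases hr : maxFit L s bd rest with
    | none =>
      rw [hr] at h
      simp only at h
      split_ifs at h with hfit
      have hm : a = m := Option.some.inj h
      subst hm
      refine ⟨List.mem_cons_self, hfit, ?_⟩
      intro c hc hcfit
      rcases List.mem_cons.mp hc with rfl | hc
      · exact le_rfl
      · exact absurd hcfit (maxFit_none hr c hc)
    | some c' =>
      rw [hr] at h
      simp only at h
      obtain ⟨hc'mem, hc'fit, hc'max⟩ := maxFit_some hr
      split_ifs at h with hfit
      · have hm : a = m := Option.some.inj h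
        subst hm
        refine ⟨List.mem_cons_self, hfit.1, ?_⟩
        intro c hc hcfit
        rcases List.mem_cons.mp hc with rfl | hc
        · exact le_rfl
        · exact (hc'max c hc hcfit).trans hfit.2.le
      · have hm : c' = m := Option.some.inj h
        subst hm
        refine ⟨List.mem_cons_of_mem _ hc'mem, hc'fit, ?_⟩
        intro c hc hcfit
        rcases List.mem_cons.mp hc with rfl | hc
        · by_contra hlt
          exact hfit ⟨hcfit, not_le.mp hlt⟩
        · exact hc'max c hc hcfit

/-- Apply `f` to every element of the list, skipping an element equal to its predecessor. -/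
def allSkip (f : ℕ → Bool) : Option ℕ → List ℕ → Bool
  | _, [] => true
  | prev, b :: rest => (if prev = some b then true else f b) && allSkip f (some b) rest

theorem allSkip_sound {f : ℕ → Bool} : ∀ {l : List ℕ} {prev : Option ℕ},
    allSkip f prev l = true → (∀ p, prev = some p → f p = true) → ∀ b ∈ l, f b = true
  | [], _, _, _, b, hb => by simp at hb
  | a :: rest, prev, h, hprev, b, hb => by
    unfold allSkip at h
    rw [Bool.and_eq_true] at h
    have hfa : f a = true := by
      by_cases hp : prev = some a
      · exact hprev a hp
      · simpa [hp] using h.1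
    rcases List.mem_cons.mp hb with rfl | hb
    · exact hfa
    · exact allSkip_sound h.2 (fun p hp => by cases hp; exact hfa) b hb

/-- Refutation search: `noPart L fuel l = true` certifies that the list `l` cannot be split into
triples of total size at most `L`. The first element is put in a triple with a second element `b`
and the largest fitting third element `c ≤ b`. -/
def noPart (L : ℕ) : ℕ → List ℕ → Bool
  | _, [] => false
  | 0, _ :: _ => false
  | fuel + 1, x :: rest =>
    allSkip (fun b =>
      match maxFit L (x + b) b (rest.erase b) with
      | none => true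
      | some c => noPart L fuel ((rest.erase b).erase c)) none rest

theorem noPart_sound {L : ℕ} : ∀ {fuel : ℕ} {l : List ℕ}, noPart L fuel l = true →
    ¬ TriPart L (l : Multiset ℕ)
  | _, [], h => by simp [noPart] at h
  | 0, _ :: _, h => by simp [noPart] at h
  | fuel + 1, x :: rest, h => by
    intro hT
    unfold noPart at h
    obtain ⟨b, c, M', hM, hsum, hT'⟩ := hT.step (x := x) (by simp)
    have hrest : (rest : Multiset ℕ) = b ::ₘ c ::ₘ M' := by
      have h1 : x ::ₘ (rest : Multiset ℕ) = x ::ₘ b ::ₘ c ::ₘ M' := by
        rw [← hM]; rfl
      exact (Multiset.cons_inj_right x).mp h1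
    -- without loss of generality `c ≤ b`
    wlog hcb : c ≤ b generalizing b c
    · exact this c b (by rw [hM, Multiset.cons_swap b c]) (by omega)
        (by rw [hrest, Multiset.cons_swap]) (by omega)
    have hb : b ∈ rest := by
      have : b ∈ (rest : Multiset ℕ) := by rw [hrest]; exact Multiset.mem_cons_self _ _
      simpa using this
    have hfb := allSkip_sound h (fun p hp => by cases hp) b hb
    have hR : ((rest.erase b : List ℕ) : Multiset ℕ) = c ::ₘ M' := by
      rw [← Multiset.coe_erase, hrest, Multiset.erase_cons_head]
    have hc : c ∈ rest.erase b := by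
      have : c ∈ ((rest.erase b : List ℕ) : Multiset ℕ) := by
        rw [hR]; exact Multiset.mem_cons_self _ _
      simpa using this
    cases hmf : maxFit L (x + b) b (rest.erase b) with
    | none => exact maxFit_none hmf c hc ⟨hcb, by omega⟩
    | some c' =>
      rw [hmf] at hfb
      simp only at hfb
      obtain ⟨hc'mem, -, hc'max⟩ := maxFit_some hmf
      have hcc' : c ≤ c' := hc'max c hc ⟨hcb, by omega⟩
      have hIH := noPart_sound hfb
      have hE : (((rest.erase b).erase c' : List ℕ) : Multiset ℕ) = (c ::ₘ M').erase c' := by
        rw [← Multiset.coe_erase, hR]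
      rw [hE] at hIH
      by_cases heq : c' = c
      · subst heq
        rw [Multiset.erase_cons_head] at hIH
        exact hIH hT'
      · have hc'M : c' ∈ M' := by
          have : c' ∈ c ::ₘ M' := by
            rw [← hR]; simpa using hc'mem
          exact (Multiset.mem_cons.mp this).resolve_left heq
        rw [Multiset.erase_cons_tail _ (Ne.symm heq)] at hIH
        apply hIH
        have h2 : TriPart L (c' ::ₘ M'.erase c') := by
          rw [Multiset.cons_erase hc'M]; exact hT'
        exact h2.mono hcc'

end Vale.Agent.Lib.P302.helper14
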