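import Mathlib
import Vale.Agent.Lib.P302.helper14.NoPart

namespace Vale.Agent.Lib.P302.helper14

open Finset

/-- Integer form of packability: items of sizes `l` (positions of the list) can be put into `m`
bins of capacity `L`. -/
def PackableNat (l : List ℕ) (L m : ℕ) : Prop :=
  ∃ f : Fin l.length → Fin m, ∀ b : Fin m,
    ∑ i ∈ Finset.univ.filter (fun i => f i = b), l.get i ≤ L

/-- `QTri L M t`: some `3t` of the items of `M` can be split into `t` triples of size at most `L`. -/
def QTri (L : ℕ) (M : Multiset ℕ) (t : ℕ) : Prop :=
  ∃ U ≤ M, Multiset.card U = 3 * t ∧ TriPart L U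

/-- If every item is at least a quarter of the capacity and every item except possibly the last
one of the list is larger than a quarter of the capacity, then a set of items of total size at
most `L` has at most three elements. -/
theorem card_le_three {l : List ℕ} {L : ℕ} (h1 : ∀ k ∈ l, L ≤ 4 * k)
    (h2 : ∀ k ∈ l.dropLast, L < 4 * k) (s : Finset (Fin l.length))
    (hs : ∑ i ∈ s, l.get i ≤ L) : s.card ≤ 3 := by
  classical
  by_contra hc
  have hcard : 4 ≤ s.card := by omega
  have key : ∀ i ∈ s, L + 1 ≤ 4 * l.get i + (if i.val + 1 = l.length then 1 else 0) := by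
    intro i _
    by_cases hi : i.val + 1 = l.length
    · rw [if_pos hi]
      have := h1 _ (List.get_mem l i)
      omega
    · rw [if_neg hi]
      have hmem : l.get i ∈ l.dropLast := by
        rw [List.mem_iff_getElem]
        have hlt : i.val < l.dropLast.length := by
          have := i.isLt
          simp only [List.length_dropLast]
          omega
        exact ⟨i.val, hlt, by simp [List.getElem_dropLast]⟩
      have := h2 _ hmem
      omega
  have hsum := Finset.sum_le_sum key
  rw [Finset.sum_const, smul_eq_mul, Finset.sum_add_distrib, ← Finset.mul_sum] at hsum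
  have he : ∑ i ∈ s, (if i.val + 1 = l.length then 1 else 0) ≤ 1 := by
    rw [Finset.sum_boole]
    have : (s.filter fun i => i.val + 1 = l.length).card ≤ 1 := by
      apply Finset.card_le_one.mpr
      intro a ha b hb
      simp only [Finset.mem_filter] at ha hb
      exact Fin.ext (by omega)
    exact_mod_cast this
  nlinarith

/-- If every set of items of total size at most `L` has at most three elements, a packing into
`m` bins contains at least `n - 2m` bins with exactly three items. -/
theorem exists_triples {l : List ℕ} {L m : ℕ}
    (hbig : ∀ s : Finset (Fin l.length), ∑ i ∈ s, l.get i ≤ L → s.card ≤ 3)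
    (h : PackableNat l L m) : QTri L (l : Multiset ℕ) (l.length - 2 * m) := by
  classical
  obtain ⟨f, hf⟩ := h
  set B : Fin m → Finset (Fin l.length) := fun b => univ.filter (fun i => f i = b) with hBdef
  set g : Fin l.length → ℕ := fun i => l.get i with hgdef
  have hB3 : ∀ b, (B b).card ≤ 3 := fun b => hbig (B b) (hf b)
  have hsum : ∑ b, (B b).card = l.length := by
    have := Finset.card_eq_sum_card_fiberwise (f := f) (s := Finset.univ) (t := Finset.univ)
      (fun i _ => Finset.mem_univ _)
    simpa using this.symm
  set S3 : Finset (Fin m) := univ.filter (fun b => (B b).card = 3) with hS3def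
  have hS3 : l.length - 2 * m ≤ S3.card := by
    have h1 : ∀ b, (B b).card ≤ 2 + (if (B b).card = 3 then 1 else 0) := by
      intro b
      have := hB3 b
      split_ifs <;> omega
    have h2 := Finset.sum_le_sum (fun b (_ : b ∈ (univ : Finset (Fin m))) => h1 b)
    rw [hsum, Finset.sum_add_distrib] at h2
    simp only [Finset.sum_const, Finset.card_univ, Fintype.card_fin, smul_eq_mul,
      Finset.sum_boole] at h2
    have h3 : ((univ.filter (fun b => (B b).card = 3)).card : ℕ) = S3.card := rfl
    simp only [Nat.cast_id] at h2
    omega
  obtain ⟨S, hSS3, hScard⟩ := Finset.exists_subset_card_eq hS3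
  have key : ∀ S' : Finset (Fin m), (S'.val.map (fun b => (B b).val.map g)).sum
      = (univ.filter (fun i => f i ∈ S')).val.map g := by
    intro S'
    induction S' using Finset.induction_on with
    | empty => simp
    | insert b S' hb ih =>
      rw [Finset.insert_val_of_notMem hb, Multiset.map_cons, Multiset.sum_cons, ih,
        ← Multiset.map_add]
      congr 1
      have hd : Disjoint (B b) (univ.filter (fun i => f i ∈ S')) := by
        rw [Finset.disjoint_left]
        intro i hi hi'
        simp only [hBdef, Finset.mem_filter, Finset.mem_univ, true_and] at hi hi'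
        exact hb (hi ▸ hi')
      have hu : univ.filter (fun i => f i ∈ insert b S')
          = (B b).disjUnion (univ.filter (fun i => f i ∈ S')) hd := by
        ext i
        simp [hBdef, Finset.mem_insert]
      rw [hu, Finset.disjUnion_val]
  refine ⟨(S.val.map (fun b => (B b).val.map g)).sum, ?_, ?_, S.val.map (fun b => (B b).val.map g),
    ?_, rfl⟩
  · rw [key]
    calc (univ.filter (fun i => f i ∈ S)).val.map g
        ≤ (univ : Finset (Fin l.length)).val.map g :=
          Multiset.map_le_map (Finset.val_le_iff.mpr (Finset.filter_subset _ _))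
      _ = (l : Multiset ℕ) := by
          rw [Fin.univ_val_map]
          simp [hgdef]
  · rw [key, Multiset.card_map, ← Finset.card_def,
      Finset.card_eq_sum_card_fiberwise (f := f) (t := S)
        (by intro i hi; simpa using hi)]
    have : ∀ b ∈ S, ((univ.filter (fun i => f i ∈ S)).filter (fun i => f i = b)).card = 3 := by
      intro b hb
      have hb3 := (Finset.mem_filter.mp (hSS3 hb)).2
      rw [← hb3]
      congr 1
      ext i
      simp only [hBdef, Finset.mem_filter, Finset.mem_univ, true_and]
      constructor
      · rintro ⟨_, h⟩; exact h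
      · intro h; exact ⟨h ▸ hb, h⟩
    rw [Finset.sum_congr rfl this, Finset.sum_const, smul_eq_mul, hScard]
    ring
  · intro τ hτ
    obtain ⟨b, hb, rfl⟩ := Multiset.mem_map.mp hτ
    have hb3 := (Finset.mem_filter.mp (hSS3 hb)).2
    refine ⟨by simpa using hb3, ?_⟩
    exact hf b

theorem QTri.drop_max {L t x : ℕ} {M : Multiset ℕ} (hx : ∀ y ∈ M, y ≤ x)
    (hcard : 3 * t ≤ Multiset.card M) (h : QTri L (x ::ₘ M) t) : QTri L M t := by
  obtain ⟨U, hU, hc, hT⟩ := h
  by_cases hxU : x ∈ U
  · obtain ⟨U', rfl⟩ := Multiset.exists_cons_of_mem hxU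
    have hU' : U' ≤ M := (Multiset.cons_le_cons_iff x).mp hU
    have hlt : Multiset.card U' < Multiset.card M := by
      simp only [Multiset.card_cons] at hc
      omega
    have hne : M - U' ≠ 0 := by
      intro h0
      have := congrArg Multiset.card h0
      rw [Multiset.card_sub hU'] at this
      simp at this
      omega
    obtain ⟨v, hv⟩ := Multiset.exists_mem_of_ne_zero hne
    have hvM : v ∈ M := Multiset.mem_of_le tsub_le_self hv
    refine ⟨v ::ₘ U', ?_, by simpa using hc, hT.mono (hx v hvM)⟩
    have h1 : v ::ₘ U' ≤ (M - U') + U' := by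
      rw [← Multiset.singleton_add]
      exact add_le_add (Multiset.singleton_le.mpr hv) le_rfl
    rwa [tsub_add_cancel_of_le hU'] at h1
  · exact ⟨U, (Multiset.le_cons_of_notMem hxU).mp hU, hc, hT⟩

theorem QTri.drop {L t : ℕ} : ∀ (k : ℕ) (l : List ℕ), l.Pairwise (· ≥ ·) → 3 * t + k ≤ l.length →
    QTri L (l : Multiset ℕ) t → QTri L ((l.drop k : List ℕ) : Multiset ℕ) t
  | 0, l, _, _, h => by simpa using h
  | k + 1, [], _, hlen, _ => by simp at hlen
  | k + 1, x :: rest, hs, hlen, h => by
    rw [List.drop_succ_cons]
    have hs' := List.pairwise_cons.mp hs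
    apply QTri.drop k rest hs'.2 (by simp at hlen; omega)
    apply QTri.drop_max (x := x) (fun y hy => hs'.1 y (by simpa using hy))
      (by simp at hlen ⊢; omega)
    simpa using h

/-- Boolean test that a list is sorted in non-increasing order. -/
def sortedDesc : List ℕ → Bool
  | [] => true
  | [_] => true
  | a :: b :: l => Nat.ble b a && sortedDesc (b :: l)

theorem sortedDesc_sound : ∀ {l : List ℕ}, sortedDesc l = true → l.Pairwise (· ≥ ·)
  | [], _ => List.Pairwise.nil
  | [_], _ => List.pairwise_singleton _ _
  | a :: b :: l, h => by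
    unfold sortedDesc at h
    rw [Bool.and_eq_true] at h
    have hba : b ≤ a := Nat.le_of_ble_eq_true h.1
    have ih := sortedDesc_sound h.2
    refine List.pairwise_cons.mpr ⟨?_, ih⟩
    intro y hy
    rcases List.mem_cons.mp hy with rfl | hy
    · exact hba
    · exact ((List.pairwise_cons.mp ih).1 y hy).trans hba

/-- The certificate check for instances whose items are all at least `L/4`, and larger than `L/4`
except possibly for the last (smallest) one: the items `l` (sorted non-increasingly) cannot be
packed into `m` bins of capacity `L`. -/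
def check23 (l : List ℕ) (L m : ℕ) : Bool :=
  sortedDesc l &&
    (l.all (fun k => Nat.ble L (4 * k)) && l.dropLast.all (fun k => Nat.blt L (4 * k))) &&
    (Nat.blt l.length (3 * (l.length - 2 * m)) ||
      noPart L (l.length - 2 * m) (l.drop (l.length - 3 * (l.length - 2 * m))))

theorem check23_sound {l : List ℕ} {L m : ℕ} (h : check23 l L m = true) : ¬ PackableNat l L m := by
  intro hp
  unfold check23 at h
  rw [Bool.and_eq_true, Bool.and_eq_true, Bool.or_eq_true] at h
  obtain ⟨⟨hsorted, hbig⟩, hmain⟩ := h
  rw [Bool.and_eq_true] at hbig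
  have hbig1 : ∀ k ∈ l, L ≤ 4 * k := by
    intro k hk
    exact Nat.le_of_ble_eq_true (List.all_eq_true.mp hbig.1 k hk)
  have hbig2 : ∀ k ∈ l.dropLast, L < 4 * k := by
    intro k hk
    have := List.all_eq_true.mp hbig.2 k hk
    rwa [Nat.blt_eq] at this
  have hQ := exists_triples (card_le_three hbig1 hbig2) hp
  rcases hmain with hlt | hno
  · have hlt' : l.length < 3 * (l.length - 2 * m) := by rwa [Nat.blt_eq] at hlt
    obtain ⟨U, hU, hc, -⟩ := hQ
    have := Multiset.card_le_card hU
    simp at this
    omega
  · by_cases hle : 3 * (l.length - 2 * m) ≤ l.length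
    · have hQ' := QTri.drop (l.length - 3 * (l.length - 2 * m)) l (sortedDesc_sound hsorted)
        (by omega) hQ
      obtain ⟨U, hU, hc, hT⟩ := hQ'
      have hUeq : U = ((l.drop (l.length - 3 * (l.length - 2 * m)) : List ℕ) : Multiset ℕ) := by
        apply Multiset.eq_of_le_of_card_le hU
        simp only [Multiset.coe_card, List.length_drop]
        omega
      rw [hUeq] at hT
      exact noPart_sound hno hT
    · obtain ⟨U, hU, hc, -⟩ := hQ
      have := Multiset.card_le_card hU
      simp at this
      omega

end Vale.Agent.Lib.P302.helper14
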