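import Mathlib
import Vale.Agent.Lib.P302.helper14.Defs
import Vale.Agent.Lib.P302.helper14.Reduce

namespace Vale.Agent.Lib.P302.helper14

open Finset

theorem packable_mono {I : List ℚ} {k m : ℕ} (h : Packable I k) (hkm : k ≤ m) : Packable I m := by
  classical
  obtain ⟨f, hf⟩ := h
  refine ⟨fun i => Fin.castLE hkm (f i), fun b => ?_⟩
  by_cases hb : b.val < k
  · have : (univ.filter fun i => Fin.castLE hkm (f i) = b)
        = univ.filter fun i => f i = ⟨b.val, hb⟩ := by
      ext i
      simp [Fin.ext_iff]
    rw [this]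
    exact hf _
  · have : (univ.filter fun i => Fin.castLE hkm (f i) = b) = ∅ := by
      ext i
      simp only [Finset.mem_filter, Finset.mem_univ, true_and, Finset.notMem_empty, iff_false]
      intro h
      apply hb
      rw [← h]
      exact (f i).isLt
    rw [this]
    simp

theorem packable_self {I : List ℚ} (hI : IsInstance I) : Packable I I.length := by
  classical
  refine ⟨id, fun b => ?_⟩
  have : (univ.filter fun i : Fin I.length => id i = b) = {b} := by
    ext i
    simp
  rw [this, Finset.sum_singleton]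
  exact (hI _ (List.get_mem I b)).2

theorem opt_ge {I : List ℚ} {m : ℕ} (hI : IsInstance I) (h : ¬ Packable I m) : m + 1 ≤ OPT I := by
  have hmem : OPT I ∈ {k | Packable I k} := Nat.sInf_mem ⟨_, packable_self hI⟩
  by_contra hlt
  exact h (packable_mono hmem (by omega))

theorem lp_le {I : List ℚ} {z : List (Multiset ℚ × ℚ)} (hz : IsFracSol I z) :
    LP I ≤ (((z.map Prod.snd).sum : ℚ) : ℝ) := by
  apply csInf_le
  · refine ⟨0, ?_⟩
    rintro v ⟨z', hz', rfl⟩
    have : (0 : ℚ) ≤ (z'.map Prod.snd).sum := by
      apply List.sum_nonneg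
      intro x hx
      obtain ⟨p, hp, rfl⟩ := List.mem_map.mp hx
      exact (hz'.1 p hp).2
    exact_mod_cast this
  · exact ⟨z, hz, rfl⟩

/-- The rational instance with item sizes `k / L`. -/
def ratInst (l : List ℕ) (L : ℕ) : List ℚ := l.map fun k : ℕ => (k : ℚ) / L

theorem ratInst_isInstance {l : List ℕ} {L : ℕ} (hL : 0 < L) (hle : ∀ k ∈ l, 0 < k ∧ k ≤ L) :
    IsInstance (ratInst l L) := by
  intro a ha
  obtain ⟨k, hk, rfl⟩ := List.mem_map.mp ha
  have hL' : (0 : ℚ) < L := by exact_mod_cast hL
  have hk0 : (0 : ℚ) < k := by exact_mod_cast (hle k hk).1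
  have hkL : (k : ℚ) ≤ L := by exact_mod_cast (hle k hk).2
  exact ⟨div_pos hk0 hL', (div_le_one hL').mpr hkL⟩

theorem packableNat_of_packable {l : List ℕ} {L m : ℕ} (hL : 0 < L)
    (h : Packable (ratInst l L) m) : PackableNat l L m := by
  classical
  obtain ⟨f, hf⟩ := h
  have hlen : (ratInst l L).length = l.length := List.length_map _
  refine ⟨fun i => f (Fin.cast hlen.symm i), fun b => ?_⟩
  have hL' : (0 : ℚ) < L := by exact_mod_cast hL
  have key : ∑ i ∈ univ.filter (fun i : Fin l.length => f (Fin.cast hlen.symm i) = b),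
      ((l.get i : ℕ) : ℚ) / L
      = ∑ j ∈ univ.filter (fun j => f j = b), (ratInst l L).get j := by
    apply Finset.sum_equiv (finCongr hlen.symm)
    · intro i
      simp
    · intro i _
      simp [ratInst]
      rfl
  have h1 := hf b
  rw [← key, ← Finset.sum_div, div_le_one hL'] at h1
  exact_mod_cast h1

theorem sum_map_div (c : List ℕ) (L : ℕ) :
    (c.map fun k : ℕ => (k : ℚ) / L).sum = (c.sum : ℚ) / L := by
  induction c with
  | nil => simp
  | cons a c ih => simp [ih, add_div]

theorem sum_map_mul_div (zs : List (List ℕ × ℕ)) (a : List ℕ × ℕ → ℕ) (D : ℕ) :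
    (zs.map fun p => (a p : ℚ) * ((p.2 : ℚ) / D)).sum
      = (((zs.map fun p => a p * p.2).sum : ℕ) : ℚ) / D := by
  induction zs with
  | nil => simp
  | cons p zs ih =>
    simp only [List.map_cons, List.sum_cons, ih]
    push_cast
    ring

/-- The rational fractional solution attached to integer data: configurations are lists of
integer sizes, weights are `w / D`. -/
def ratSol (L D : ℕ) (zs : List (List ℕ × ℕ)) : List (Multiset ℚ × ℚ) :=
  zs.map fun p => (((p.1.map fun k : ℕ => (k : ℚ) / L : List ℚ) : Multiset ℚ), (p.2 : ℚ) / D)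

/-- Boolean check that `zs` (configurations as lists of integer sizes, weights `w / D`) is a
feasible fractional solution for the items `l` with capacity `L`. -/
def fracOK (l : List ℕ) (L D : ℕ) (zs : List (List ℕ × ℕ)) : Bool :=
  zs.all (fun p => p.1.all (fun k => l.contains k) && Nat.ble p.1.sum L) &&
    l.all (fun k => Nat.ble (l.count k * D) (zs.map fun p => p.1.count k * p.2).sum)

theorem cast_div_injective {L : ℕ} (hL : 0 < L) :
    Function.Injective (fun k : ℕ => (k : ℚ) / L) := by
  intro a b hab
  have hL' : (L : ℚ) ≠ 0 := by exact_mod_cast hL.ne'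
  have : (a : ℚ) = b := by
    field_simp at hab
    exact hab
  exact_mod_cast this

theorem isFracSol_of_fracOK {l : List ℕ} {L D : ℕ} {zs : List (List ℕ × ℕ)} (hL : 0 < L)
    (hD : 0 < D) (h : fracOK l L D zs = true) : IsFracSol (ratInst l L) (ratSol L D zs) := by
  unfold fracOK at h
  rw [Bool.and_eq_true] at h
  obtain ⟨h1, h2⟩ := h
  have hL' : (0 : ℚ) < L := by exact_mod_cast hL
  have hD' : (0 : ℚ) < D := by exact_mod_cast hD
  have hinj := cast_div_injective hL
  constructor
  · intro q hq
    obtain ⟨p, hp, rfl⟩ := List.mem_map.mp hq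
    have hp' := List.all_eq_true.mp h1 p hp
    rw [Bool.and_eq_true] at hp'
    refine ⟨⟨?_, ?_⟩, by positivity⟩
    · intro σ hσ
      have hσ' : σ ∈ p.1.map fun k : ℕ => (k : ℚ) / L := by simpa using hσ
      obtain ⟨k, hk, rfl⟩ := List.mem_map.mp hσ'
      have hkl : k ∈ l := by
        have := List.all_eq_true.mp hp'.1 k hk
        simpa using this
      exact List.mem_map.mpr ⟨k, hkl, rfl⟩
    · have hsum : p.1.sum ≤ L := Nat.le_of_ble_eq_true hp'.2
      show (((p.1.map fun k : ℕ => (k : ℚ) / L : List ℚ) : Multiset ℚ)).sum ≤ 1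
      rw [Multiset.sum_coe, sum_map_div, div_le_one hL']
      exact_mod_cast hsum
  · intro σ hσ
    obtain ⟨k, hk, rfl⟩ := List.mem_map.mp hσ
    have hk' : l.count k * D ≤ (zs.map fun p => p.1.count k * p.2).sum :=
      Nat.le_of_ble_eq_true (List.all_eq_true.mp h2 k hk)
    have hc1 : (ratInst l L).count ((k : ℚ) / L) = l.count k :=
      List.count_map_of_injective l _ hinj k
    have hc2 : ((ratSol L D zs).map fun q => (q.1.count ((k : ℚ) / L) : ℚ) * q.2).sum
        = (((zs.map fun p => p.1.count k * p.2).sum : ℕ) : ℚ) / D := by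
      rw [← sum_map_mul_div zs (fun p => p.1.count k) D]
      unfold ratSol
      rw [List.map_map]
      congr 1
      apply List.map_congr_left
      intro p _
      simp only [Function.comp, Multiset.coe_count]
      rw [List.count_map_of_injective p.1 _ hinj k]
    rw [hc1, hc2, le_div_iff₀ hD']
    exact_mod_cast hk'

theorem ratSol_value (L D : ℕ) (zs : List (List ℕ × ℕ)) :
    ((ratSol L D zs).map Prod.snd).sum = (((zs.map Prod.snd).sum : ℕ) : ℚ) / D := by
  unfold ratSol
  rw [List.map_map]
  induction zs with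
  | nil => simp
  | cons p zs ih =>
    simp only [List.map_cons, List.sum_cons, Function.comp] at ih ⊢
    rw [ih]
    push_cast
    ring

/-- Main certificate theorem: for items of integer sizes `l` (all at least `L/4` and, except
possibly the last one, larger than `L/4`; sorted non-increasingly) and capacity `L`, if the triple
search refutes a packing into `m` bins and `zs` is a fractional solution of value `V / D`, then
`OPT - LP ≥ m + 1 - V / D`. -/
theorem gap_of_cert (l : List ℕ) (L m D : ℕ) (zs : List (List ℕ × ℕ)) (hL : 0 < L) (hD : 0 < D)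
    (hle : ∀ k ∈ l, 0 < k ∧ k ≤ L) (hpack : check23 l L m = true)
    (hfrac : fracOK l L D zs = true) :
    IsInstance (ratInst l L) ∧
      ((m : ℝ) + 1) - (((zs.map Prod.snd).sum : ℕ) : ℝ) / D
        ≤ (OPT (ratInst l L) : ℝ) - LP (ratInst l L) := by
  have hI := ratInst_isInstance hL hle
  refine ⟨hI, ?_⟩
  have h1 : m + 1 ≤ OPT (ratInst l L) :=
    opt_ge hI (fun hp => check23_sound hpack (packableNat_of_packable hL hp))
  have h2 := lp_le (isFracSol_of_fracOK hL hD hfrac)
  rw [ratSol_value] at h2
  have h1' : ((m : ℝ) + 1) ≤ (OPT (ratInst l L) : ℝ) := by exact_mod_cast h1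
  have h2' : LP (ratInst l L) ≤ (((zs.map Prod.snd).sum : ℕ) : ℝ) / D := by
    have e : ((((((zs.map Prod.snd).sum : ℕ) : ℚ) / D : ℚ)) : ℝ)
        = (((zs.map Prod.snd).sum : ℕ) : ℝ) / D := by
      rw [Rat.cast_div, Rat.cast_natCast, Rat.cast_natCast]
    rw [← e]
    exact h2
  linarith

end Vale.Agent.Lib.P302.helper14
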