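import Mathlib
import Vale.Agent.Lib.P302.helper14.NoPart

namespace Vale.Agent.Lib.P302.helper14

/-- Lexicographic comparison of lists of naturals. -/
def lcmp : List ℕ → List ℕ → Ordering
  | [], [] => Ordering.eq
  | [], _ :: _ => Ordering.lt
  | _ :: _, [] => Ordering.gt
  | a :: as, b :: bs =>
    if a < b then Ordering.lt else if b < a then Ordering.gt else lcmp as bs

theorem lcmp_eq : ∀ {a b : List ℕ}, lcmp a b = Ordering.eq → a = b
  | [], [], _ => rfl
  | [], _ :: _, h => by simp [lcmp] at h
  | _ :: _, [], h => by simp [lcmp] at h
  | a :: as, b :: bs, h => by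
    unfold lcmp at h
    split_ifs at h with h1 h2
    have hab : a = b := by omega
    subst hab
    rw [lcmp_eq h]

/-- Merge two lists of states, identifying equal heads (the first argument is fuel). -/
def mergeD : ℕ → List (List ℕ) → List (List ℕ) → List (List ℕ)
  | 0, xs, ys => xs ++ ys
  | _ + 1, [], ys => ys
  | _ + 1, x :: xs, [] => x :: xs
  | f + 1, x :: xs, y :: ys =>
    match lcmp x y with
    | Ordering.lt => x :: mergeD f xs (y :: ys)
    | Ordering.gt => y :: mergeD f (x :: xs) ys
    | Ordering.eq => x :: mergeD f xs ys

theorem mem_mergeD : ∀ (f : ℕ) (xs ys : List (List ℕ)) (s : List ℕ),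
    s ∈ xs ∨ s ∈ ys → s ∈ mergeD f xs ys
  | 0, xs, ys, s, h => by
    unfold mergeD
    exact List.mem_append.mpr h
  | _ + 1, [], ys, s, h => by
    unfold mergeD
    rcases h with h | h
    · simp at h
    · exact h
  | _ + 1, x :: xs, [], s, h => by
    unfold mergeD
    rcases h with h | h
    · exact h
    · simp at h
  | f + 1, x :: xs, y :: ys, s, h => by
    unfold mergeD
    cases hc : lcmp x y with
    | lt =>
      simp only
      rcases h with h | h
      · rcases List.mem_cons.mp h with rfl | h
        · exact List.mem_cons_self
        · exact List.mem_cons_of_mem _ (mem_mergeD f xs (y :: ys) s (Or.inl h))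
      · exact List.mem_cons_of_mem _ (mem_mergeD f xs (y :: ys) s (Or.inr h))
    | gt =>
      simp only
      rcases h with h | h
      · exact List.mem_cons_of_mem _ (mem_mergeD f (x :: xs) ys s (Or.inl h))
      · rcases List.mem_cons.mp h with rfl | h
        · exact List.mem_cons_self
        · exact List.mem_cons_of_mem _ (mem_mergeD f (x :: xs) ys s (Or.inr h))
    | eq =>
      simp only
      have hxy : x = y := lcmp_eq hc
      subst hxy
      rcases h with h | h
      · rcases List.mem_cons.mp h with rfl | h
        · exact List.mem_cons_self
        · exact List.mem_cons_of_mem _ (mem_mergeD f xs ys s (Or.inl h))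
      · rcases List.mem_cons.mp h with rfl | h
        · exact List.mem_cons_self
        · exact List.mem_cons_of_mem _ (mem_mergeD f xs ys s (Or.inr h))

/-- One round of pairwise merging. -/
def mergePairs : List (List (List ℕ)) → List (List (List ℕ))
  | [] => []
  | [a] => [a]
  | a :: b :: rest => mergeD (a.length + b.length) a b :: mergePairs rest

theorem mem_mergePairs : ∀ (ls : List (List (List ℕ))) (s : List ℕ),
    (∃ a ∈ ls, s ∈ a) → ∃ a ∈ mergePairs ls, s ∈ a
  | [], s, h => by
    obtain ⟨a, ha, -⟩ := h
    simp at ha
  | [a], s, h => by
    unfold mergePairs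
    exact h
  | a :: b :: rest, s, h => by
    unfold mergePairs
    obtain ⟨a', ha', hs⟩ := h
    rcases List.mem_cons.mp ha' with rfl | ha'
    · exact ⟨_, List.mem_cons_self, mem_mergeD _ _ _ _ (Or.inl hs)⟩
    · rcases List.mem_cons.mp ha' with rfl | ha'
      · exact ⟨_, List.mem_cons_self, mem_mergeD _ _ _ _ (Or.inr hs)⟩
      · obtain ⟨c, hc, hsc⟩ := mem_mergePairs rest s ⟨a', ha', hs⟩
        exact ⟨c, List.mem_cons_of_mem _ hc, hsc⟩

/-- Merge a list of lists of states into one list (the first argument is fuel). -/
def mergeAll : ℕ → List (List (List ℕ)) → List (List ℕ)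
  | 0, ls => ls.flatten
  | _ + 1, [] => []
  | _ + 1, [a] => a
  | f + 1, a :: b :: rest => mergeAll f (mergePairs (a :: b :: rest))

theorem mem_mergeAll : ∀ (f : ℕ) (ls : List (List (List ℕ))) (s : List ℕ),
    (∃ a ∈ ls, s ∈ a) → s ∈ mergeAll f ls
  | 0, ls, s, h => by
    unfold mergeAll
    exact List.mem_flatten.mpr h
  | _ + 1, [], s, h => by
    obtain ⟨a, ha, -⟩ := h
    simp at ha
  | _ + 1, [a], s, h => by
    unfold mergeAll
    obtain ⟨a', ha', hs⟩ := h
    rcases List.mem_cons.mp ha' with rfl | ha'
    · exact hs
    · simp at ha'
  | f + 1, a :: b :: rest, s, h => by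
    unfold mergeAll
    exact mem_mergeAll f _ s (mem_mergePairs _ s h)

/-- The least element of a list, bounded above by `d`. -/
def minList (d : ℕ) : List ℕ → ℕ
  | [] => d
  | a :: l => minList (if a < d then a else d) l

theorem minList_le : ∀ (l : List ℕ) (d : ℕ), minList d l ≤ d ∧ ∀ c ∈ l, minList d l ≤ c
  | [], d => ⟨le_rfl, fun c hc => by simp at hc⟩
  | a :: l, d => by
    unfold minList
    obtain ⟨h1, h2⟩ := minList_le l (if a < d then a else d)
    have h3 : (if a < d then a else d) ≤ d := by split_ifs <;> omega
    have h4 : (if a < d then a else d) ≤ a := by split_ifs <;> omega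
    refine ⟨h1.trans h3, ?_⟩
    intro c hc
    rcases List.mem_cons.mp hc with rfl | hc
    · exact h1.trans h4
    · exact h2 c hc

/-- Dominance test: the pair `(b, c)` is dominated by the previously used pair `(lb, lc)` when the
third elements agree and `b ≤ lb`. -/
def dominated : Option (ℕ × ℕ) → ℕ → ℕ → Bool
  | none, _, _ => false
  | some (lb, lc), b, c => Nat.beq lc c && Nat.ble b lb

theorem dominated_spec {last : Option (ℕ × ℕ)} {b c : ℕ} (h : dominated last b c = true) :
    ∃ lb, last = some (lb, c) ∧ b ≤ lb := by
  cases last with
  | none => simp [dominated] at h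
  | some p =>
    obtain ⟨lb, lc⟩ := p
    unfold dominated at h
    rw [Bool.and_eq_true] at h
    have h1 : lc = c := Nat.eq_of_beq_eq_true h.1
    have h2 : b ≤ lb := Nat.le_of_ble_eq_true h.2
    subst h1
    exact ⟨lb, rfl, h2⟩

/-- The states reached from `x :: rest` by putting `x` in a triple with a second element `b`
(each value tried once, and only if the least element of `rest`, `m0`, fits with `x` and `b`) and
the largest fitting third element `c`; a pair `(b, c)` dominated by the last used pair is
skipped. -/
def children (L x m0 : ℕ) (rest : List ℕ) :
    Option ℕ → Option (ℕ × ℕ) → List ℕ → List (List ℕ)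
  | _, _, [] => []
  | prev, last, b :: bs =>
    if prev = some b then children L x m0 rest (some b) last bs
    else if L < x + b + m0 then children L x m0 rest (some b) last bs
    else
      match maxFit L (x + b) b (rest.erase b) with
      | none => children L x m0 rest (some b) last bs
      | some c =>
        if dominated last b c = true then children L x m0 rest (some b) last bs
        else ((rest.erase b).erase c) :: children L x m0 rest (some b) (some (b, c)) bs

/-- Replacing the second element of a triple by a larger one, with the same third element, keeps a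
triple partition of the remaining items. -/
theorem child_mono {L x : ℕ} {rest : List ℕ} {b lb c : ℕ} (hb : b ∈ rest) (hlb : lb ∈ rest)
    (hle : b ≤ lb) (hmb : maxFit L (x + b) b (rest.erase b) = some c)
    (hT : TriPart L (((rest.erase b).erase c : List ℕ) : Multiset ℕ)) :
    TriPart L (((rest.erase lb).erase c : List ℕ) : Multiset ℕ) := by
  rcases eq_or_lt_of_le hle with rfl | hlt
  · exact hT
  · obtain ⟨hcmem, ⟨hcb, -⟩, -⟩ := maxFit_some hmb
    have e1 : (((rest.erase b).erase c : List ℕ) : Multiset ℕ)
        = ((rest : Multiset ℕ).erase b).erase c := by
      rw [← Multiset.coe_erase, ← Multiset.coe_erase]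
    have e2 : (((rest.erase lb).erase c : List ℕ) : Multiset ℕ)
        = ((rest : Multiset ℕ).erase lb).erase c := by
      rw [← Multiset.coe_erase, ← Multiset.coe_erase]
    rw [e1] at hT
    rw [e2]
    have hlbR : lb ∈ (rest : Multiset ℕ) := by simpa using hlb
    have hbR : b ∈ (rest : Multiset ℕ) := by simpa using hb
    have hlb1 : lb ∈ ((rest : Multiset ℕ).erase b).erase c :=
      (Multiset.mem_erase_of_ne (by omega : lb ≠ c)).mpr
        ((Multiset.mem_erase_of_ne (by omega : lb ≠ b)).mpr hlbR)
    have hb1 : b ∈ ((rest : Multiset ℕ).erase lb).erase c := by
      by_cases hbc : b = c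
      · have hc2 : b ∈ (rest : Multiset ℕ).erase b := by
          rw [Multiset.coe_erase]
          rw [hbc]
          rw [hbc] at hcmem
          simpa using hcmem
        have hcount : 2 ≤ (rest : Multiset ℕ).count b := by
          have := Multiset.count_pos.mpr hc2
          rw [Multiset.count_erase_self] at this
          omega
        rw [← hbc, ← Multiset.count_pos, Multiset.count_erase_self,
          Multiset.count_erase_of_ne (by omega : b ≠ lb)]
        omega
      · exact (Multiset.mem_erase_of_ne hbc).mpr
          ((Multiset.mem_erase_of_ne (by omega : b ≠ lb)).mpr hbR)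
    have key : ((rest : Multiset ℕ).erase lb).erase c
        = b ::ₘ ((((rest : Multiset ℕ).erase b).erase c).erase lb) := by
      have h1 : (((rest : Multiset ℕ).erase b).erase c).erase lb
          = (((rest : Multiset ℕ).erase lb).erase c).erase b := by
        rw [Multiset.erase_comm ((rest : Multiset ℕ).erase b) c lb,
          Multiset.erase_comm (rest : Multiset ℕ) b lb,
          Multiset.erase_comm ((rest : Multiset ℕ).erase lb) b c]
      rw [h1, Multiset.cons_erase hb1]
    rw [key]
    have h2 : TriPart L (lb ::ₘ ((((rest : Multiset ℕ).erase b).erase c).erase lb)) := by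
      rw [Multiset.cons_erase hlb1]
      exact hT
    exact h2.mono hle

theorem children_good {L x m0 : ℕ} {rest : List ℕ} (hm0 : ∀ c ∈ rest, m0 ≤ c) :
    ∀ (bs : List ℕ) (prev : Option ℕ) (last : Option (ℕ × ℕ)), (∀ b ∈ bs, b ∈ rest) →
    (∀ lb lc, last = some (lb, lc) → lb ∈ rest) →
    (∀ p c, prev = some p → maxFit L (x + p) p (rest.erase p) = some c →
      ∃ lb, last = some (lb, c) ∧ p ≤ lb) →
    ∀ b ∈ bs, ∀ c, maxFit L (x + b) b (rest.erase b) = some c →
      TriPart L (((rest.erase b).erase c : List ℕ) : Multiset ℕ) →
      ∃ s : List ℕ, TriPart L (s : Multiset ℕ) ∧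
        (s ∈ children L x m0 rest prev last bs ∨
          ∃ lb lc, last = some (lb, lc) ∧ s = (rest.erase lb).erase lc)
  | [], _, _, _, _, _, b, hb, _, _, _ => by simp at hb
  | b0 :: bs, prev, last, hbs, hlast, hprev, b, hb, c, hmf, hT => by
    have hb0 : b0 ∈ rest := hbs b0 List.mem_cons_self
    have hbs' : ∀ b ∈ bs, b ∈ rest := fun b hb => hbs b (List.mem_cons_of_mem _ hb)
    have hbrest : b ∈ rest := hbs b hb
    -- a fitting third element makes the quick test pass
    have hquick : ∀ b1 c1, maxFit L (x + b1) b1 (rest.erase b1) = some c1 → x + b1 + m0 ≤ L := by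
      intro b1 c1 h1
      obtain ⟨hc1mem, ⟨-, hfit⟩, -⟩ := maxFit_some h1
      have := hm0 c1 (List.mem_of_mem_erase hc1mem)
      omega
    by_cases hp : prev = some b0
    · -- `b0` is skipped as a repetition
      have hdef : children L x m0 rest prev last (b0 :: bs)
          = children L x m0 rest (some b0) last bs := by
        rw [children, if_pos hp]
      rw [hdef]
      rcases List.mem_cons.mp hb with hbb | hb'
      · subst hbb
        obtain ⟨lb, hlb, hle⟩ := hprev b c hp hmf
        exact ⟨(rest.erase lb).erase c, child_mono hbrest (hlast lb c hlb) hle hmf hT,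
          Or.inr ⟨lb, c, hlb, rfl⟩⟩
      · exact children_good hm0 bs (some b0) last hbs' hlast
          (fun p c1 hp1 hmf1 => by
            have hpb : p = b0 := (Option.some.inj hp1).symm
            subst hpb
            exact hprev p c1 hp hmf1) b hb' c hmf hT
    · by_cases hq : L < x + b0 + m0
      · have hdef : children L x m0 rest prev last (b0 :: bs)
            = children L x m0 rest (some b0) last bs := by
          rw [children, if_neg hp, if_pos hq]
        rw [hdef]
        rcases List.mem_cons.mp hb with hbb | hb'
        · subst hbb
          have := hquick b c hmf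
          omega
        · exact children_good hm0 bs (some b0) last hbs' hlast
            (fun p c1 hp1 hmf1 => by
              have hpb : p = b0 := (Option.some.inj hp1).symm
              subst hpb
              have := hquick p c1 hmf1
              omega) b hb' c hmf hT
      · cases hmf0 : maxFit L (x + b0) b0 (rest.erase b0) with
        | none =>
          have hdef : children L x m0 rest prev last (b0 :: bs)
              = children L x m0 rest (some b0) last bs := by
            rw [children, if_neg hp, if_neg hq, hmf0]
          rw [hdef]
          rcases List.mem_cons.mp hb with hbb | hb'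
          · subst hbb
            rw [hmf0] at hmf
            exact absurd hmf (by simp)
          · exact children_good hm0 bs (some b0) last hbs' hlast
              (fun p c1 hp1 hmf1 => by
                have hpb : p = b0 := (Option.some.inj hp1).symm
                subst hpb
                rw [hmf0] at hmf1
                exact absurd hmf1 (by simp)) b hb' c hmf hT
        | some c0 =>
          by_cases hdom : dominated last b0 c0 = true
          · have hdef : children L x m0 rest prev last (b0 :: bs)
                = children L x m0 rest (some b0) last bs := by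
              rw [children, if_neg hp, if_neg hq, hmf0]
              simp only
              rw [if_pos hdom]
            rw [hdef]
            obtain ⟨lb, hlb, hle⟩ := dominated_spec hdom
            rcases List.mem_cons.mp hb with hbb | hb'
            · subst hbb
              have hcc : c0 = c := by
                rw [hmf0] at hmf
                exact Option.some.inj hmf
              subst hcc
              exact ⟨(rest.erase lb).erase c0, child_mono hbrest (hlast lb c0 hlb) hle hmf hT,
                Or.inr ⟨lb, c0, hlb, rfl⟩⟩
            · exact children_good hm0 bs (some b0) last hbs' hlast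
                (fun p c1 hp1 hmf1 => by
                  have hpb : p = b0 := (Option.some.inj hp1).symm
                  subst hpb
                  have hcc : c0 = c1 := by
                    rw [hmf0] at hmf1
                    exact Option.some.inj hmf1
                  subst hcc
                  exact ⟨lb, hlb, hle⟩) b hb' c hmf hT
          · have hdef : children L x m0 rest prev last (b0 :: bs)
                = ((rest.erase b0).erase c0) ::
                  children L x m0 rest (some b0) (some (b0, c0)) bs := by
              rw [children, if_neg hp, if_neg hq, hmf0]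
              simp only
              rw [if_neg hdom]
            rw [hdef]
            rcases List.mem_cons.mp hb with hbb | hb'
            · subst hbb
              have hcc : c0 = c := by
                rw [hmf0] at hmf
                exact Option.some.inj hmf
              subst hcc
              exact ⟨_, hT, Or.inl List.mem_cons_self⟩
            · obtain ⟨s, hsT, hs⟩ := children_good hm0 bs (some b0) (some (b0, c0)) hbs'
                (fun lb lc h => by
                  have h1 : (b0, c0) = (lb, lc) := Option.some.inj h
                  have h2 : b0 = lb := congrArg Prod.fst h1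
                  rw [← h2]
                  exact hb0)
                (fun p c1 hp1 hmf1 => by
                  have hpb : p = b0 := (Option.some.inj hp1).symm
                  subst hpb
                  have hcc : c0 = c1 := by
                    rw [hmf0] at hmf1
                    exact Option.some.inj hmf1
                  subst hcc
                  exact ⟨p, rfl, le_rfl⟩) b hb' c hmf hT
              refine ⟨s, hsT, ?_⟩
              rcases hs with hs | ⟨lb, lc, hl, hs⟩
              · exact Or.inl (List.mem_cons_of_mem _ hs)
              · have h1 : (b0, c0) = (lb, lc) := Option.some.inj hl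
                have h2 : b0 = lb := congrArg Prod.fst h1
                have h3 : c0 = lc := congrArg Prod.snd h1
                rw [hs, ← h2, ← h3]
                exact Or.inl List.mem_cons_self

/-- A triple partition of `x :: rest` yields a triple-partitioned child state. -/
theorem triPart_child {L x : ℕ} {rest : List ℕ}
    (hT : TriPart L ((x :: rest : List ℕ) : Multiset ℕ)) :
    ∃ b ∈ rest, ∃ c', maxFit L (x + b) b (rest.erase b) = some c' ∧ x + b + c' ≤ L ∧
      c' ∈ rest.erase b ∧ TriPart L (((rest.erase b).erase c' : List ℕ) : Multiset ℕ) := by
  obtain ⟨b, c, M', hM, hsum, hT'⟩ := hT.step (x := x) (by simp)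
  have hrest : (rest : Multiset ℕ) = b ::ₘ c ::ₘ M' := by
    have h1 : x ::ₘ (rest : Multiset ℕ) = x ::ₘ b ::ₘ c ::ₘ M' := by
      rw [← hM]; rfl
    exact (Multiset.cons_inj_right x).mp h1
  wlog hcb : c ≤ b generalizing b c
  · exact this c b (by rw [hM, Multiset.cons_swap b c]) (by omega)
      (by rw [hrest, Multiset.cons_swap]) (by omega)
  have hb : b ∈ rest := by
    have : b ∈ (rest : Multiset ℕ) := by rw [hrest]; exact Multiset.mem_cons_self _ _
    simpa using this
  have hR : ((rest.erase b : List ℕ) : Multiset ℕ) = c ::ₘ M' := by
    rw [← Multiset.coe_erase, hrest, Multiset.erase_cons_head]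
  have hc : c ∈ rest.erase b := by
    have : c ∈ ((rest.erase b : List ℕ) : Multiset ℕ) := by
      rw [hR]; exact Multiset.mem_cons_self _ _
    simpa using this
  cases hmf : maxFit L (x + b) b (rest.erase b) with
  | none => exact absurd ⟨hcb, by omega⟩ (maxFit_none hmf c hc)
  | some c' =>
    obtain ⟨hc'mem, hc'fit, hc'max⟩ := maxFit_some hmf
    have hcc' : c ≤ c' := hc'max c hc ⟨hcb, by omega⟩
    refine ⟨b, hb, c', hmf, by omega, hc'mem, ?_⟩
    have hE : (((rest.erase b).erase c' : List ℕ) : Multiset ℕ) = (c ::ₘ M').erase c' := by
      rw [← Multiset.coe_erase, hR]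
    rw [hE]
    by_cases heq : c' = c
    · subst heq
      rw [Multiset.erase_cons_head]
      exact hT'
    · have hc'M : c' ∈ M' := by
        have : c' ∈ c ::ₘ M' := by
          rw [← hR]; simpa using hc'mem
        exact (Multiset.mem_cons.mp this).resolve_left heq
      rw [Multiset.erase_cons_tail _ (Ne.symm heq)]
      have h2 : TriPart L (c' ::ₘ M'.erase c') := by
        rw [Multiset.cons_erase hc'M]; exact hT'
      exact h2.mono hcc'

/-- The children of a state (the empty state has none). -/
def childrenOf (L : ℕ) : List ℕ → List (List ℕ)
  | [] => []
  | x :: rest => children L x (minList x rest) rest none none rest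

/-- All states reached from a layer of states in one step, with repetitions merged. -/
def stepLayer (L : ℕ) (layer : List (List ℕ)) : List (List ℕ) :=
  mergeAll layer.length (layer.map (childrenOf L))

/-- `reach L d layer = true` certifies that no state of `layer` can be split into triples of total
size at most `L`: no state is empty, and after `d` steps no state is left. -/
def reach (L : ℕ) : ℕ → List (List ℕ) → Bool
  | 0, layer => layer.isEmpty
  | d + 1, layer => !(layer.any List.isEmpty) && reach L d (stepLayer L layer)

theorem reach_sound {L : ℕ} : ∀ (d : ℕ) (layer : List (List ℕ)), reach L d layer = true →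
    ∀ s ∈ layer, ¬ TriPart L (s : Multiset ℕ)
  | 0, layer, h, s, hs => by
    unfold reach at h
    rw [List.isEmpty_iff] at h
    rw [h] at hs
    simp at hs
  | d + 1, layer, h, s, hs => by
    intro hT
    unfold reach at h
    rw [Bool.and_eq_true] at h
    obtain ⟨hne, h⟩ := h
    cases s with
    | nil =>
      have : layer.any List.isEmpty = true := List.any_eq_true.mpr ⟨[], hs, rfl⟩
      rw [this] at hne
      simp at hne
    | cons x rest =>
      obtain ⟨b, hb, c', hmf, hfit, hc'mem, hT'⟩ := triPart_child hT
      have hm0 := minList_le rest x
      obtain ⟨s', hs'T, hs'⟩ := children_good (L := L) (x := x) (m0 := minList x rest)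
        (rest := rest) hm0.2 rest none none (fun b hb => hb) (fun lb lc h => by simp at h)
        (fun p c hp _ => by simp at hp) b hb c' hmf hT'
      have hchild : s' ∈ childrenOf L (x :: rest) := by
        unfold childrenOf
        rcases hs' with h1 | ⟨lb, lc, h1, -⟩
        · exact h1
        · simp at h1
      have hstep : s' ∈ stepLayer L layer := by
        unfold stepLayer
        exact mem_mergeAll _ _ _ ⟨_, List.mem_map.mpr ⟨_, hs, rfl⟩, hchild⟩
      exact reach_sound d _ h _ hstep hs'T

end Vale.Agent.Lib.P302.helper14
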