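import Mathlib
import Vale.Agent.Lib.P302.helper14.Layer
import Vale.Agent.Lib.P302.helper14.Bridge

namespace Vale.Agent.Lib.P302.helper14

open Finset

/-- If every item is at least a quarter of the capacity, a packing into `m` bins consists of `j`
bins holding four items of size exactly `L/4`, and at least `n - 2m - 2j` bins holding exactly
three of the other items. -/
theorem exists_triples_q {l : List ℕ} {L m : ℕ} (hL : 0 < L) (h1 : ∀ k ∈ l, L ≤ 4 * k)
    (h : PackableNat l L m) :
    ∃ j : ℕ, ∃ U : Multiset ℕ, Multiset.replicate (4 * j) (L / 4) + U ≤ (l : Multiset ℕ) ∧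
      Multiset.card U = 3 * (l.length - 2 * m - 2 * j) ∧ TriPart L U := by
  classical
  obtain ⟨f, hf⟩ := h
  set B : Fin m → Finset (Fin l.length) := fun b => univ.filter (fun i => f i = b) with hBdef
  set g : Fin l.length → ℕ := fun i => l.get i with hgdef
  have hg : ∀ i, L ≤ 4 * g i := fun i => h1 _ (List.get_mem l i)
  have hfB : ∀ b, ∑ i ∈ B b, g i ≤ L := hf
  have hB4 : ∀ b, (B b).card ≤ 4 := by
    intro b
    by_contra hc
    have hcard : 5 ≤ (B b).card := by omega
    have hsum := Finset.sum_le_sum (fun i (_ : i ∈ B b) => hg i)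
    rw [Finset.sum_const, smul_eq_mul, ← Finset.mul_sum] at hsum
    have := hfB b
    nlinarith
  have hquad : ∀ b, (B b).card = 4 → ∀ i ∈ B b, g i = L / 4 := by
    intro b hb4 i hi
    have hsum := Finset.sum_le_sum (fun i' (_ : i' ∈ (B b).erase i) => hg i')
    rw [Finset.sum_const, smul_eq_mul, ← Finset.mul_sum, Finset.card_erase_of_mem hi, hb4] at hsum
    have htot := hfB b
    have hsplit : g i + ∑ i' ∈ (B b).erase i, g i' = ∑ i' ∈ B b, g i' :=
      Finset.add_sum_erase _ _ hi
    have := hg i
    omega
  have hsum : ∑ b, (B b).card = l.length := by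
    have := Finset.card_eq_sum_card_fiberwise (f := f) (s := Finset.univ) (t := Finset.univ)
      (fun i _ => Finset.mem_univ _)
    simpa using this.symm
  set S4 : Finset (Fin m) := univ.filter (fun b => (B b).card = 4) with hS4def
  set S3 : Finset (Fin m) := univ.filter (fun b => (B b).card = 3) with hS3def
  have hS3 : l.length - 2 * m - 2 * S4.card ≤ S3.card := by
    have h1 : ∀ b, (B b).card ≤ 2 + (if (B b).card = 3 then 1 else 0)
        + 2 * (if (B b).card = 4 then 1 else 0) := by
      intro b
      have := hB4 b
      split_ifs <;> omega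
    have h2 := Finset.sum_le_sum (fun b (_ : b ∈ (univ : Finset (Fin m))) => h1 b)
    rw [hsum, Finset.sum_add_distrib, Finset.sum_add_distrib, ← Finset.mul_sum] at h2
    simp only [Finset.sum_const, Finset.card_univ, Fintype.card_fin, smul_eq_mul,
      Finset.sum_boole, Nat.cast_id] at h2
    have h3 : (univ.filter (fun b => (B b).card = 3)).card = S3.card := rfl
    have h4 : (univ.filter (fun b => (B b).card = 4)).card = S4.card := rfl
    omega
  obtain ⟨S, hSS3, hScard⟩ := Finset.exists_subset_card_eq hS3
  have key : ∀ S' : Finset (Fin m), (S'.val.map (fun b => (B b).val.map g)).sum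
      = (univ.filter (fun i => f i ∈ S')).val.map g := by
    intro S'
    induction S' using Finset.induction_on with
    | empty => simp
    | insert b S' hb ih =>
      rw [Finset.insert_val_of_notMem hb, Multiset.map_cons, Multiset.sum_cons, ih,
        ← Multiset.map_add]
      congr 1
      have hd : Disjoint (B b) (univ.filter (fun i => f i ∈ S')) := by
        rw [Finset.disjoint_left]
        intro i hi hi'
        simp only [hBdef, Finset.mem_filter, Finset.mem_univ, true_and] at hi hi'
        exact hb (hi ▸ hi')
      have hu : univ.filter (fun i => f i ∈ insert b S')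
          = (B b).disjUnion (univ.filter (fun i => f i ∈ S')) hd := by
        ext i
        simp [hBdef, Finset.mem_insert]
      rw [hu, Finset.disjUnion_val]
  have hcardfib : ∀ (S' : Finset (Fin m)) (c : ℕ), (∀ b ∈ S', (B b).card = c) →
      (univ.filter (fun i => f i ∈ S')).card = S'.card * c := by
    intro S' c hS'
    rw [Finset.card_eq_sum_card_fiberwise (f := f) (t := S') (by intro i hi; simpa using hi)]
    have : ∀ b ∈ S', ((univ.filter (fun i => f i ∈ S')).filter (fun i => f i = b)).card = c := by
      intro b hb
      rw [← hS' b hb]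
      congr 1
      ext i
      simp only [hBdef, Finset.mem_filter, Finset.mem_univ, true_and]
      constructor
      · rintro ⟨_, h⟩; exact h
      · intro h; exact ⟨h ▸ hb, h⟩
    rw [Finset.sum_congr rfl this, Finset.sum_const, smul_eq_mul]
  have hd : Disjoint (univ.filter (fun i => f i ∈ S4)) (univ.filter (fun i => f i ∈ S)) := by
    rw [Finset.disjoint_left]
    intro i hi hi'
    simp only [Finset.mem_filter, Finset.mem_univ, true_and] at hi hi'
    have h3 := (Finset.mem_filter.mp (hSS3 hi')).2
    have h4 := (Finset.mem_filter.mp hi).2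
    omega
  refine ⟨S4.card, (univ.filter (fun i => f i ∈ S)).val.map g, ?_, ?_, ?_⟩
  · have hQ : (univ.filter (fun i => f i ∈ S4)).val.map g
        = Multiset.replicate (4 * S4.card) (L / 4) := by
      rw [Multiset.eq_replicate]
      constructor
      · rw [Multiset.card_map, ← Finset.card_def,
          hcardfib S4 4 (fun b hb => (Finset.mem_filter.mp hb).2)]
        ring
      · intro a ha
        obtain ⟨i, hi, rfl⟩ := Multiset.mem_map.mp ha
        have hi' : f i ∈ S4 := by simpa using hi
        exact hquad (f i) (Finset.mem_filter.mp hi').2 i (by simp [hBdef])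
    rw [← hQ, ← Multiset.map_add, ← Finset.disjUnion_val _ _ hd]
    calc ((univ.filter (fun i => f i ∈ S4)).disjUnion (univ.filter (fun i => f i ∈ S)) hd).val.map g
        ≤ (univ : Finset (Fin l.length)).val.map g :=
          Multiset.map_le_map (Finset.val_le_iff.mpr (Finset.subset_univ _))
      _ = (l : Multiset ℕ) := by
          rw [Fin.univ_val_map]
          simp [hgdef]
  · rw [Multiset.card_map, ← Finset.card_def,
      hcardfib S 3 (fun b hb => (Finset.mem_filter.mp (hSS3 hb)).2), hScard]
    ring
  · refine ⟨S.val.map (fun b => (B b).val.map g), ?_, key S⟩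
    intro τ hτ
    obtain ⟨b, hb, rfl⟩ := Multiset.mem_map.mp hτ
    have hb3 := (Finset.mem_filter.mp (hSS3 hb)).2
    refine ⟨by simpa using hb3, ?_⟩
    exact hfB b

/-- The certificate check for instances whose items are all at least `L/4` (any number of them
may have size exactly `L/4`): the items `l` (sorted non-increasingly) cannot be packed into `m`
bins of capacity `L`. For each possible number `j` of bins holding four items of size `L/4`, the
lightest `3 (n - 2m - 2j)` of the remaining items are shown not to split into triples. -/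
def checkQ (l : List ℕ) (L m : ℕ) : Bool :=
  sortedDesc l && Nat.blt 0 L && l.all (fun k => Nat.ble L (4 * k)) &&
    (List.range (l.count (L / 4) / 4 + 1)).all (fun j =>
      (l.drop (l.length - 4 * j) == List.replicate (4 * j) (L / 4)) &&
      (Nat.blt (l.length - 4 * j) (3 * (l.length - 2 * m - 2 * j)) ||
        reach L (l.length - 2 * m - 2 * j)
          [(l.take (l.length - 4 * j)).drop
            (l.length - 4 * j - 3 * (l.length - 2 * m - 2 * j))]))

theorem checkQ_sound {l : List ℕ} {L m : ℕ} (h : checkQ l L m = true) : ¬ PackableNat l L m := by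
  intro hp
  unfold checkQ at h
  rw [Bool.and_eq_true, Bool.and_eq_true, Bool.and_eq_true] at h
  obtain ⟨⟨⟨hsorted, hL⟩, hbig⟩, hall⟩ := h
  have hL' : 0 < L := by rwa [Nat.blt_eq] at hL
  have hbig1 : ∀ k ∈ l, L ≤ 4 * k := by
    intro k hk
    exact Nat.le_of_ble_eq_true (List.all_eq_true.mp hbig k hk)
  obtain ⟨j, U, hU, hc, hT⟩ := exists_triples_q hL' hbig1 hp
  have hcount : 4 * j ≤ l.count (L / 4) := by
    have h1 : Multiset.replicate (4 * j) (L / 4) ≤ (l : Multiset ℕ) :=
      le_trans (Multiset.le_add_right _ _) hU
    have h2 := Multiset.count_le_of_le (L / 4) h1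
    rw [Multiset.count_replicate_self, Multiset.coe_count] at h2
    exact h2
  have hj : j ∈ List.range (l.count (L / 4) / 4 + 1) := by
    rw [List.mem_range]
    omega
  have hjc := List.all_eq_true.mp hall j hj
  rw [Bool.and_eq_true, Bool.or_eq_true] at hjc
  obtain ⟨hdrop, hmain⟩ := hjc
  have hdrop' : l.drop (l.length - 4 * j) = List.replicate (4 * j) (L / 4) := by
    simpa using hdrop
  set l' := l.take (l.length - 4 * j) with hl'
  have hlen4 : 4 * j ≤ l.length := by
    have := List.count_le_length (a := L / 4) (l := l)
    omega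
  have hl'len : l'.length = l.length - 4 * j := by
    rw [hl', List.length_take]
    omega
  have hsplit : (l : Multiset ℕ) = (l' : Multiset ℕ) + Multiset.replicate (4 * j) (L / 4) := by
    have h1 : l = l' ++ List.replicate (4 * j) (L / 4) := by
      rw [← hdrop', hl', List.take_append_drop]
    conv_lhs => rw [h1]
    rw [← Multiset.coe_add]
    rfl
  have hU' : U ≤ (l' : Multiset ℕ) := by
    have h3 : Multiset.replicate (4 * j) (L / 4) + U
        ≤ Multiset.replicate (4 * j) (L / 4) + (l' : Multiset ℕ) := by
      rw [add_comm _ (l' : Multiset ℕ), ← hsplit]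
      exact hU
    exact Multiset.add_le_add_iff_left.mp h3
  have hsorted' : l'.Pairwise (· ≥ ·) :=
    (sortedDesc_sound hsorted).sublist (List.take_sublist _ _)
  set k := l.length - 2 * m - 2 * j with hk
  rcases hmain with hlt | hno
  · have hlt' : l.length - 4 * j < 3 * k := by rwa [Nat.blt_eq] at hlt
    have := Multiset.card_le_card hU'
    rw [hc, Multiset.coe_card, hl'len] at this
    omega
  · have hle : 3 * k ≤ l'.length := by
      have := Multiset.card_le_card hU'
      rw [hc, Multiset.coe_card] at this
      exact this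
    have hQ' := QTri.drop (l'.length - 3 * k) l' hsorted' (by omega) ⟨U, hU', hc, hT⟩
    obtain ⟨U2, hU2, hc2, hT2⟩ := hQ'
    have hUeq : U2 = ((l'.drop (l'.length - 3 * k) : List ℕ) : Multiset ℕ) := by
      apply Multiset.eq_of_le_of_card_le hU2
      simp only [Multiset.coe_card, List.length_drop]
      omega
    rw [hUeq] at hT2
    rw [← hl'len] at hno
    exact reach_sound k _ hno _ (List.mem_singleton.mpr rfl) hT2

/-- Certificate theorem for items of integer sizes `l`, all at least `L/4` (sorted
non-increasingly), and capacity `L`: if the layered triple search refutes a packing into `m` bins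
and `zs` is a fractional solution of value `V / D`, then `OPT - LP ≥ m + 1 - V / D`. -/
theorem gap_of_cert_q (l : List ℕ) (L m D : ℕ) (zs : List (List ℕ × ℕ)) (hL : 0 < L) (hD : 0 < D)
    (hle : ∀ k ∈ l, 0 < k ∧ k ≤ L) (hpack : checkQ l L m = true)
    (hfrac : fracOK l L D zs = true) :
    IsInstance (ratInst l L) ∧
      ((m : ℝ) + 1) - (((zs.map Prod.snd).sum : ℕ) : ℝ) / D
        ≤ (OPT (ratInst l L) : ℝ) - LP (ratInst l L) := by
  have hI := ratInst_isInstance hL hle
  refine ⟨hI, ?_⟩
  have h1 : m + 1 ≤ OPT (ratInst l L) :=
    opt_ge hI (fun hp => checkQ_sound hpack (packableNat_of_packable hL hp))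
  have h2 := lp_le (isFracSol_of_fracOK hL hD hfrac)
  rw [ratSol_value] at h2
  have h1' : ((m : ℝ) + 1) ≤ (OPT (ratInst l L) : ℝ) := by exact_mod_cast h1
  have h2' : LP (ratInst l L) ≤ (((zs.map Prod.snd).sum : ℕ) : ℝ) / D := by
    have e : ((((((zs.map Prod.snd).sum : ℕ) : ℚ) / D : ℚ)) : ℝ)
        = (((zs.map Prod.snd).sum : ℕ) : ℝ) / D := by
      rw [Rat.cast_div, Rat.cast_natCast, Rat.cast_natCast]
    rw [← e]
    exact h2
  linarith

end Vale.Agent.Lib.P302.helper14
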