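import Mathlib
import Vale.Agent.Lib.P302.helper8.Chunked

/-!
# P302: the mask search, checked piece by piece, for any order of the bit positions

A variant of the check `stepOKF` of `helper8.Chunked`: the children of the states of a piece are
sorted before the walk through the next layer, so that the check does not depend on the order in
which the search produces them.
-/

namespace Vale.Agent.Lib.P302.helper14

open Vale.Agent.Lib.P302.helper8

/-- Sort a list of numbers, removing repetitions (by merging). -/
def sortN (l : List ℕ) : List ℕ := mergeAllN 1000000000000 64 (l.map fun x => [x])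

theorem mem_sortN {l : List ℕ} {s : ℕ} (h : s ∈ l) : s ∈ sortN l :=
  mem_mergeAllN _ _ _ _ ⟨[s], List.mem_map.mpr ⟨s, h, rfl⟩, List.mem_singleton.mpr rfl⟩

/-- Check for one piece of a layer: every child of a state of the piece occurs in `next`. -/
def stepOKS (rows : List Row) (L : ℕ) (piece next : List ℕ) : Bool :=
  subWalkN 1000000000000 (sortN (stepF rows L piece)) next

theorem stepOKS_sound {rows : List Row} {L : ℕ} {piece next : List ℕ}
    (hr : rowsOK rows = true) (h : stepOKS rows L piece next = true)
    (hnext : ∀ m ∈ next, ¬ TriPart L (szs (sel rows m))) :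
    ∀ m ∈ piece, ¬ TriPart L (szs (sel rows m)) := by
  intro m hm hT
  obtain ⟨hnd, hsort⟩ := rowsOK_sound hr
  obtain ⟨m', hm', hT'⟩ := kids_sound hnd hsort hT
  exact hnext m' (subWalkN_sound _ _ _ h m' (mem_sortN (mem_stepF hm hm'))) hT'

end Vale.Agent.Lib.P302.helper14
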