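import Mathlib
import Vale.Agent.Lib.P302.helper14.Bridge

namespace Vale.Agent.Lib.P302.helper14

open Finset

/-- `BinPart L M m`: the multiset `M` of item sizes can be split into at most `m` bins, each of
total size at most `L`. -/
def BinPart (L : ℕ) (M : Multiset ℕ) (m : ℕ) : Prop :=
  ∃ T : Multiset (Multiset ℕ), Multiset.card T ≤ m ∧ (∀ τ ∈ T, τ.sum ≤ L) ∧ T.sum = M

theorem BinPart.erase {L m : ℕ} {M : Multiset ℕ} (h : BinPart L M m) {r : ℕ} (hr : r ∈ M) :
    BinPart L (M.erase r) m := by
  obtain ⟨T, hc, hT, rfl⟩ := h
  obtain ⟨τ, hτT, hrτ⟩ := Multiset.mem_join.mp hr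
  obtain ⟨T', rfl⟩ := Multiset.exists_cons_of_mem hτT
  refine ⟨(τ.erase r) ::ₘ T', by simpa using hc, ?_, ?_⟩
  · intro σ hσ
    rcases Multiset.mem_cons.mp hσ with rfl | hσ
    · have h1 := hT τ (Multiset.mem_cons_self _ _)
      have h2 := Multiset.sum_erase hrτ
      omega
    · exact hT σ (Multiset.mem_cons_of_mem hσ)
  · simp only [Multiset.sum_cons]
    exact (Multiset.erase_add_left_pos _ hrτ).symm

theorem BinPart.step {L m x : ℕ} {M : Multiset ℕ} (h : BinPart L (x ::ₘ M) (m + 1)) :
    ∃ S ≤ M, x + S.sum ≤ L ∧ BinPart L (M - S) m := by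
  obtain ⟨T, hc, hT, hsum⟩ := h
  have hx : x ∈ T.sum := by rw [hsum]; exact Multiset.mem_cons_self _ _
  obtain ⟨τ, hτT, hxτ⟩ := Multiset.mem_join.mp hx
  obtain ⟨T', rfl⟩ := Multiset.exists_cons_of_mem hτT
  obtain ⟨S, rfl⟩ := Multiset.exists_cons_of_mem hxτ
  have hM : M = S + T'.sum := by
    have h1 : x ::ₘ (S + T'.sum) = x ::ₘ M := by
      rw [← hsum, Multiset.sum_cons, Multiset.cons_add]
    exact ((Multiset.cons_inj_right x).mp h1).symm
  refine ⟨S, ?_, ?_, T', ?_, fun σ hσ => hT σ (Multiset.mem_cons_of_mem hσ), ?_⟩
  · rw [hM]; exact Multiset.le_add_right _ _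
  · have := hT (x ::ₘ S) (Multiset.mem_cons_self _ _)
    simpa using this
  · simp only [Multiset.card_cons] at hc
    omega
  · rw [hM, add_tsub_cancel_left]

theorem BinPart.sum_le {L m : ℕ} {M : Multiset ℕ} (h : BinPart L M m) : M.sum ≤ m * L := by
  obtain ⟨T, hc, hT, rfl⟩ := h
  have key : ∀ T : Multiset (Multiset ℕ), (∀ τ ∈ T, τ.sum ≤ L) →
      T.sum.sum ≤ Multiset.card T * L := by
    intro T
    induction T using Multiset.induction_on with
    | empty => intro _; simp
    | cons τ T ih =>
      intro hT
      have h1 := hT τ (Multiset.mem_cons_self _ _)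
      have h2 := ih (fun σ hσ => hT σ (Multiset.mem_cons_of_mem hσ))
      simp only [Multiset.sum_cons, Multiset.sum_add, Multiset.card_cons]
      nlinarith
  calc T.sum.sum ≤ Multiset.card T * L := key T hT
    _ ≤ m * L := Nat.mul_le_mul_right L hc

/-- Enumerate the ways to complete a bin: `cap` is the remaining capacity, `ys` the items still
undecided, `acc` the items already excluded (in reverse order), `skip` the value of the item
excluded last (equal items following it are excluded as well). The continuation `k` is called on
the items left out of the bin, but only when no left-out item still fits. -/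
def enumBins (k : List ℕ → Bool) : ℕ → Option ℕ → List ℕ → List ℕ → Bool
  | cap, _, [], acc => if acc.all (fun r => Nat.blt cap r) = true then k acc.reverse else true
  | cap, skip, y :: ys, acc =>
    (if skip = some y then true
      else if y ≤ cap then enumBins k (cap - y) none ys acc else true) &&
      enumBins k cap (some y) ys (y :: acc)

theorem enumBins_sound {k : List ℕ → Bool} {Q : Multiset ℕ → Prop}
    (hk : ∀ l, k l = true → Q (l : Multiset ℕ)) :
    ∀ (ys : List ℕ) (cap : ℕ) (skip : Option ℕ) (acc : List ℕ),
      enumBins k cap skip ys acc = true →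
      ∀ S : Multiset ℕ, S ≤ (ys : Multiset ℕ) → S.sum ≤ cap → (∀ v, skip = some v → v ∉ S) →
        (∃ r ∈ ((ys : Multiset ℕ) - S) + (acc : Multiset ℕ), r + S.sum ≤ cap) ∨
          Q (((ys : Multiset ℕ) - S) + (acc : Multiset ℕ))
  | [], cap, skip, acc, h, S, hS, hsum, _ => by
    have hS0 : S = 0 := by
      have : S ≤ 0 := by simpa using hS
      exact Multiset.le_zero.mp this
    subst hS0
    unfold enumBins at h
    by_cases hall : acc.all (fun r => Nat.blt cap r) = true
    · rw [if_pos hall] at h
      right
      have := hk _ h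
      simpa using this
    · left
      have hall' : ∃ r ∈ acc, ¬ ((fun r => Nat.blt cap r) r = true) := by
        by_contra hcon
        apply hall
        rw [List.all_eq_true]
        intro r hr
        by_contra hr'
        exact hcon ⟨r, hr, hr'⟩
      obtain ⟨r, hr, hr'⟩ := hall'
      refine ⟨r, by simpa using hr, ?_⟩
      have : ¬ cap < r := by
        intro hlt
        exact hr' (by rw [Nat.blt_eq]; exact hlt)
      simp only [Multiset.sum_zero, add_zero]
      omega
  | y :: ys, cap, skip, acc, h, S, hS, hsum, hskip => by
    unfold enumBins at h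
    rw [Bool.and_eq_true] at h
    obtain ⟨h1, h2⟩ := h
    have hcoe : ((y :: ys : List ℕ) : Multiset ℕ) = y ::ₘ (ys : Multiset ℕ) := rfl
    rw [hcoe] at hS ⊢
    by_cases hyS : y ∈ S
    · have hne : skip ≠ some y := fun he => hskip y he hyS
      rw [if_neg hne] at h1
      obtain ⟨S', rfl⟩ := Multiset.exists_cons_of_mem hyS
      have hycap : y ≤ cap := by
        simp only [Multiset.sum_cons] at hsum
        omega
      rw [if_pos hycap] at h1
      have hS' : S' ≤ (ys : Multiset ℕ) := (Multiset.cons_le_cons_iff y).mp hS
      have hsum' : S'.sum ≤ cap - y := by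
        simp only [Multiset.sum_cons] at hsum
        omega
      have hsub : y ::ₘ (ys : Multiset ℕ) - y ::ₘ S' = (ys : Multiset ℕ) - S' := by
        rw [Multiset.sub_cons, Multiset.erase_cons_head]
      rw [hsub]
      rcases enumBins_sound hk ys (cap - y) none acc h1 S' hS' hsum' (by simp) with
        ⟨r, hr, hr'⟩ | hQ
      · left
        refine ⟨r, hr, ?_⟩
        simp only [Multiset.sum_cons]
        omega
      · right
        exact hQ
    · have hS' : S ≤ (ys : Multiset ℕ) := (Multiset.le_cons_of_notMem hyS).mp hS
      have hsub : (y ::ₘ (ys : Multiset ℕ) - S) + (acc : Multiset ℕ)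
          = ((ys : Multiset ℕ) - S) + ((y :: acc : List ℕ) : Multiset ℕ) := by
        rw [Multiset.cons_sub_of_le _ hS']
        have : ((y :: acc : List ℕ) : Multiset ℕ) = y ::ₘ (acc : Multiset ℕ) := rfl
        rw [this, Multiset.cons_add, Multiset.add_cons]
      rw [hsub]
      exact enumBins_sound hk ys cap (some y) (y :: acc) h2 S hS' hsum
        (by intro v hv; cases hv; exact hyS)

/-- Refutation search for bin packing: `noPack L fuel m l = true` certifies that the items `l`
cannot be packed into `m` bins of capacity `L`. The first item is put in a bin together with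
every possible maximal set of further items, and the rest is treated recursively. -/
def noPack (L : ℕ) : ℕ → ℕ → List ℕ → Bool
  | 0, _, _ => false
  | _ + 1, _, [] => false
  | _ + 1, 0, _ :: _ => true
  | fuel + 1, m + 1, x :: rest =>
    Nat.blt L x || Nat.blt ((m + 1) * L) (x + rest.sum) ||
      enumBins (noPack L fuel m) (L - x) none rest []

theorem noPack_sound {L : ℕ} : ∀ {fuel m : ℕ} {l : List ℕ}, noPack L fuel m l = true →
    ¬ BinPart L (l : Multiset ℕ) m
  | 0, _, _, h => by simp [noPack] at h
  | _ + 1, _, [], h => by simp [noPack] at h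
  | _ + 1, 0, x :: rest, _ => by
    rintro ⟨T, hc, -, hsum⟩
    have hT : T = 0 := Multiset.card_eq_zero.mp (by omega)
    subst hT
    have : x ∈ (0 : Multiset (Multiset ℕ)).sum := by rw [hsum]; simp
    simp at this
  | fuel + 1, m + 1, x :: rest, h => by
    intro hB
    have hcoe : ((x :: rest : List ℕ) : Multiset ℕ) = x ::ₘ (rest : Multiset ℕ) := rfl
    rw [hcoe] at hB
    unfold noPack at h
    rw [Bool.or_eq_true, Bool.or_eq_true] at h
    obtain ⟨S, hS, hsum, hrem⟩ := hB.step
    rcases h with (hx | hvol) | henum
    · rw [Nat.blt_eq] at hx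
      omega
    · rw [Nat.blt_eq] at hvol
      have := hB.sum_le
      simp only [Multiset.sum_cons, Multiset.sum_coe] at this
      omega
    · have claim : ∀ n, ∀ S : Multiset ℕ, S ≤ (rest : Multiset ℕ) → x + S.sum ≤ L →
          Multiset.card ((rest : Multiset ℕ) - S) = n →
          ¬ BinPart L ((rest : Multiset ℕ) - S) m := by
        intro n
        induction n using Nat.strong_induction_on with
        | _ n ih =>
          intro S hS hsum hcard hBP
          rcases enumBins_sound (Q := fun M => ¬ BinPart L M m) (fun l hl => noPack_sound hl)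
            rest (L - x) none [] henum S hS (by omega) (by simp) with ⟨r, hr, hr'⟩ | hQ
          · have hr2 : r ∈ (rest : Multiset ℕ) - S := by simpa using hr
            have hle : r ::ₘ S ≤ (rest : Multiset ℕ) := by
              have h1 : r ::ₘ S ≤ ((rest : Multiset ℕ) - S) + S := by
                rw [← Multiset.singleton_add]
                exact add_le_add (Multiset.singleton_le.mpr hr2) le_rfl
              rwa [tsub_add_cancel_of_le hS] at h1
            have heq : (rest : Multiset ℕ) - r ::ₘ S = ((rest : Multiset ℕ) - S).erase r := by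
              rw [← Multiset.sub_singleton, tsub_tsub, ← Multiset.singleton_add, add_comm]
            have hlt : Multiset.card ((rest : Multiset ℕ) - r ::ₘ S) < n := by
              have hpos : 0 < Multiset.card ((rest : Multiset ℕ) - S) :=
                Multiset.card_pos_iff_exists_mem.mpr ⟨r, hr2⟩
              rw [heq, Multiset.card_erase_of_mem hr2, hcard]
              rw [hcard] at hpos
              exact Nat.pred_lt (by omega)
            refine ih _ hlt (r ::ₘ S) hle ?_ rfl ?_
            · simp only [Multiset.sum_cons]
              omega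
            · rw [heq]
              exact hBP.erase hr2
          · exact hQ (by simpa using hBP)
      exact claim _ S hS hsum rfl hrem

/-- The bins of a packing, as multisets of sizes, add up to the multiset of all items. -/
theorem binPart_of_packableNat {l : List ℕ} {L m : ℕ} (h : PackableNat l L m) :
    BinPart L (l : Multiset ℕ) m := by
  classical
  obtain ⟨f, hf⟩ := h
  set B : Fin m → Finset (Fin l.length) := fun b => univ.filter (fun i => f i = b) with hBdef
  set g : Fin l.length → ℕ := fun i => l.get i with hgdef
  have key : ∀ S' : Finset (Fin m), (S'.val.map (fun b => (B b).val.map g)).sum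
      = (univ.filter (fun i => f i ∈ S')).val.map g := by
    intro S'
    induction S' using Finset.induction_on with
    | empty => simp
    | insert b S' hb ih =>
      rw [Finset.insert_val_of_notMem hb, Multiset.map_cons, Multiset.sum_cons, ih,
        ← Multiset.map_add]
      congr 1
      have hd : Disjoint (B b) (univ.filter (fun i => f i ∈ S')) := by
        rw [Finset.disjoint_left]
        intro i hi hi'
        simp only [hBdef, Finset.mem_filter, Finset.mem_univ, true_and] at hi hi'
        exact hb (hi ▸ hi')
      have hu : univ.filter (fun i => f i ∈ insert b S')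
          = (B b).disjUnion (univ.filter (fun i => f i ∈ S')) hd := by
        ext i
        simp [hBdef, Finset.mem_insert]
      rw [hu, Finset.disjUnion_val]
  refine ⟨(univ : Finset (Fin m)).val.map (fun b => (B b).val.map g), by simp, ?_, ?_⟩
  · intro τ hτ
    obtain ⟨b, -, rfl⟩ := Multiset.mem_map.mp hτ
    exact hf b
  · rw [key]
    have : (univ.filter (fun i => f i ∈ (univ : Finset (Fin m)))) = (univ : Finset (Fin l.length)) := by
      ext i
      simp
    rw [this, Fin.univ_val_map]
    simp [hgdef]

/-- General certificate check: the items `l` cannot be packed into `m` bins of capacity `L`. -/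
def checkGen (l : List ℕ) (L m : ℕ) : Bool := noPack L (m + 1) m l

theorem checkGen_sound {l : List ℕ} {L m : ℕ} (h : checkGen l L m = true) :
    ¬ PackableNat l L m :=
  fun hp => noPack_sound h (binPart_of_packableNat hp)

/-- General certificate theorem (arbitrary item sizes): for items of integer sizes `l` and
capacity `L`, if the search refutes a packing into `m` bins and `zs` is a fractional solution of
value `V / D`, then `OPT - LP ≥ m + 1 - V / D`. -/
theorem gap_of_cert_gen (l : List ℕ) (L m D : ℕ) (zs : List (List ℕ × ℕ)) (hL : 0 < L)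
    (hD : 0 < D) (hle : ∀ k ∈ l, 0 < k ∧ k ≤ L) (hpack : checkGen l L m = true)
    (hfrac : fracOK l L D zs = true) :
    IsInstance (ratInst l L) ∧
      ((m : ℝ) + 1) - (((zs.map Prod.snd).sum : ℕ) : ℝ) / D
        ≤ (OPT (ratInst l L) : ℝ) - LP (ratInst l L) := by
  have hI := ratInst_isInstance hL hle
  refine ⟨hI, ?_⟩
  have h1 : m + 1 ≤ OPT (ratInst l L) :=
    opt_ge hI (fun hp => checkGen_sound hpack (packableNat_of_packable hL hp))
  have h2 := lp_le (isFracSol_of_fracOK hL hD hfrac)
  rw [ratSol_value] at h2
  have h1' : ((m : ℝ) + 1) ≤ (OPT (ratInst l L) : ℝ) := by exact_mod_cast h1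
  have h2' : LP (ratInst l L) ≤ (((zs.map Prod.snd).sum : ℕ) : ℝ) / D := by
    have e : ((((((zs.map Prod.snd).sum : ℕ) : ℚ) / D : ℚ)) : ℝ)
        = (((zs.map Prod.snd).sum : ℕ) : ℝ) / D := by
      rw [Rat.cast_div, Rat.cast_natCast, Rat.cast_natCast]
    rw [← e]
    exact h2
  linarith

end Vale.Agent.Lib.P302.helper14
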